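import Vale.Agent.N280.Defs

/-!
# P280: the two forms of the condition on the second Betti number
-/

open scoped ContDiff Matrix Topology
open Vale.Agent.P272.K Vale.Agent.P280Z

namespace Vale.Agent.N280

variable {n : ℕ} {X : Type} [TopologicalSpace X] [ChartedSpace (Cm n) X]

theorem dd_two {u : Cm n → Cm n →L[ℝ] Cm n →L[ℝ] ℝ} {z : Cm n} (h : ContDiffAt ℝ ∞ u z)
    (a b c : Cm n) : dd (fun y => u y b c) z a = fderiv ℝ u z a b c := by
  have h1 := (h.differentiableAt (by simp)).hasFDerivAt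
  have h2 := ((ContinuousLinearMap.apply ℝ ℝ c).comp
    (ContinuousLinearMap.apply ℝ (Cm n →L[ℝ] ℝ) b)).hasFDerivAt.comp z h1
  exact congrArg (fun L : Cm n →L[ℝ] ℝ => L a) h2.fderiv

theorem dd_one {u : Cm n → Cm n →L[ℝ] ℝ} {z : Cm n} (h : ContDiffAt ℝ ∞ u z)
    (a b : Cm n) : dd (fun y => u y b) z a = fderiv ℝ u z a b := by
  have h1 := (h.differentiableAt (by simp)).hasFDerivAt
  have h2 := (ContinuousLinearMap.apply ℝ ℝ b).hasFDerivAt.comp z h1
  exact congrArg (fun L : Cm n →L[ℝ] ℝ => L a) h2.fderiv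

theorem closed_of {u : Chart n X → Cm n → Cm n →L[ℝ] Cm n →L[ℝ] ℝ} (h : Cl2 n u) :
    Closed2 fun e z v w => u e z v w where
  lin e x _ v := ⟨(u e (e x) v).map_add, (u e (e x) v).map_smul⟩
  alt e x he v w := by
    have h1 := h.alt e x he (v + w)
    simp only [map_add, ContinuousLinearMap.add_apply, h.alt e x he] at h1
    linarith
  sm e x he v w := ((h.sm e x he).clm_apply contDiffAt_const).clm_apply contDiffAt_const
  chg := h.chg
  cls e x he a b c := by
    rw [dd_two (h.sm e x he), dd_two (h.sm e x he), dd_two (h.sm e x he)]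
    exact h.cls e x he a b c

theorem b2_of (h : BettiTwo n X) : B2 n X := by
  intro u u' hu hu'
  obtain ⟨c, c', hc, α, hα, k⟩ := h _ _ (closed_of hu) (closed_of hu')
  let b := Module.finBasis ℝ (Cm n)
  let β : Chart n X → Cm n → Cm n →L[ℝ] ℝ := fun e z =>
    ∑ i, α e z (b i) • LinearMap.toContinuousLinearMap (b.coord i)
  have h1 : ∀ e x, At e x → ∀ v, β e (e x) v = α e (e x) v := fun e x he v => by
    have := congrArg ((hα.lin e x he).mk' _) (b.sum_repr v)
    simp only [map_sum, map_smul, smul_eq_mul] at this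
    refine Eq.trans ?_ this
    simp only [β, ContinuousLinearMap.sum_apply]
    exact Finset.sum_congr rfl fun i _ => mul_comm _ _
  have h2 : ∀ e x, At e x → ContDiffAt ℝ ∞ (β e) (e x) := fun e x he =>
    ContDiffAt.sum fun i _ => ContDiffAt.smul (hα.sm e x he (b i)) contDiffAt_const
  have h3 : ∀ e x, At e x → ∀ v w, fderiv ℝ (β e) (e x) v w = dd (fun z => α e z w) (e x) v :=
    fun e x he v w => by
      rw [← dd_one (h2 e x he)]
      refine congrArg (fun L : Cm n →L[ℝ] ℝ => L v) (Filter.EventuallyEq.fderiv_eq ?_)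
      refine (e.open_target.eventually_mem (e.map_source he.2)).mono fun z hz => ?_
      have := h1 e (e.symm z) ⟨he.1, e.map_target hz⟩ w
      rwa [e.right_inv hz] at this
  refine ⟨c, c', hc, β, h2, fun e e' x he he' v => ?_, fun e x he v w => ?_⟩
  · rw [h1 e x he, h1 e' x he', hα.chg e e' x he he']
  · rw [h3 e x he, h3 e x he, ← k e x he]
    rfl

end Vale.Agent.N280
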