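import Vale.Agent.N280.Min
import Vale.Agent.P280Z.Cv.Six
import Vale.Agent.P280Z.M2.K1.All

/-!
# P280: the cases of dimension at most six, from free curves of minimal degree
-/

open scoped Manifold ContDiff Topology Matrix
open Set Filter
open Vale.Agent.P272.K Vale.Agent.P285.H281.FD Vale.Agent.P281Z Vale.Agent.P280Z.Mp
open Vale.Agent.P280Z

noncomputable section

namespace Vale.Agent.N280

/-- the tangent bundle is globally generated -/
abbrev Gn (n : ℕ) : Mf n → Prop := fun V => Gp.Gen n V.X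

theorem c0 (n : ℕ) (hn : 2 ≤ n) : CS n 0 fun _ => False := by
  intro T hT N r d D k δ V P pt F E s
  obtain rfl : n = k + 1 := s.dim.symm
  have := s.fano.1
  have se : Sub (k + 1) (k + 1) F.e := ⟨F.e_hol, F.e_sbm⟩
  have hi : Function.Injective F.e := fun u v q => by_contra fun ne =>
    (Gm.cov T s.ok hT.hrr _ _ _ se s.cU s.fano.1 (Cv.fa_of s.ok s.fano)
      (F.e v)).isPreconnected.infinite_of_nontrivial ⟨u, q, v, rfl, ne⟩
      ((Gm.eta T s.ok _ _ _ se inferInstance).2 _).1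
  have h := s.ns
  have hv : 0 < (Cv.nsF T F E).GU.int ((Cv.nsF T F E).hh * (Cv.nsF T F E).aa ^ k) :=
    (Ma.ex_of s.ok F s.hyp E s.cU s.ns.toOK0).vol
  have ep : ∀ b, (Cv.nsF T F E).es ((Cv.nsF T F E).el b) = b := Cv.pull_push s.ok se hi
  generalize Cv.nsF T F E = S at h hv ep
  obtain ⟨c, hc⟩ := h.b2 (S.el S.τ) ((h.el_pr 1 _).trans (congrArg _ h.dτ))
  have h1 : S.τ = c • S.hh := by rw [← ep S.τ, hc, map_smul, NS.hh]
  have h2 : (2 : T.H F.U) = c • (1 : T.H F.U) := by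
    rw [← h.Tτ, h1, map_smul, NS.hh, h.Tη]
  have h3 : S.aa = 0 := by
    rw [NS.aa, NS.hc, h1, ← mul_one S.hh, ← mul_smul_comm, ← h2]
    ring
  rw [h3, zero_pow (by omega), mul_zero, map_zero] at hv
  exact absurd hv (lt_irrefl _)

theorem c31 : CS 3 1 (Gn 3) := fun T t _ _ _ _ _ _ _ _ _ F E h =>
  En.qe (by norm_num) (by norm_num) h t.hrr (Qs.q3 h.ns (R1.xt T t F E h))

theorem c41 : CS 4 1 fun _ => False := fun T t _ _ _ _ _ _ _ _ _ F E s =>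
  Qs.s41 s.ns (R1.xt T t F E s).ex (G2.wlx (by norm_num) T t F E s)

theorem c51 : CS 5 1 (Gn 5) := fun T t _ _ _ _ _ _ _ _ _ F E s =>
  G2.g51 T t.hrr F E s (Qs.n51p s.ns (R1.xt T t F E s) (Gz.plane t s (by norm_num)))

theorem c61 : CS 6 1 fun _ => False := fun T t _ _ _ _ _ _ _ _ _ F E s =>
  Qs.t61 s.ns (R1.xt T t F E s) (Gz.plane t s (by norm_num)) (Gz.dq t s)

theorem c42 : CS 4 2 (Gn 4) := fun _ t _ _ _ _ _ _ _ _ _ _ _ h =>
  have f := (En.fs_of h).fa h.ok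
  En.qe (by norm_num) (by norm_num) h t.hrr
    (Qs.q4 h.ns ((Gm.rt _ h.ok t.hrr).1 _ h.fano.1 f) (En.kint h.ok t.hrr (by norm_num) f))

theorem c53 : CS 5 3 (Gn 5) := fun _ t _ _ _ _ _ _ _ _ _ _ _ h =>
  have f := (En.fs_of h).fa h.ok
  En.qe (by norm_num) (by norm_num) h t.hrr
    (Qs.q5 h.ns ((Gm.rt _ h.ok t.hrr).1 _ h.fano.1 f) (En.kint h.ok t.hrr (by norm_num) f))

theorem c52 : CS 5 2 fun _ => False := fun _ t _ _ _ _ k _ _ _ _ F E h => by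
  have f := (En.fs_of h).fa h.ok
  obtain rfl : k = 6 := by have := h.dim; omega
  exact N52.n52 h.ns (Ma.ex_of h.ok F h.hyp E h.cU h.ns.toOK0)
    ((Gm.rt _ h.ok t.hrr).1 _ h.fano.1 f) (En.kint h.ok t.hrr (by norm_num) f)

theorem cII : M2.CII :=
  M2.cII_of (fun _ _ _ _ _ _ _ _ _ _ _ _ _ _ h _ hY => M2.K1.num h hY) M2.c2
    fun _ _ _ _ _ _ _ _ _ _ _ _ _ _ h _ => M2.y0 h

theorem c62 : CS 6 2 (Gn 6) := fun T t _ _ _ _ _ _ _ _ _ F E s =>
  let ⟨Mc, vr, h1, h2, h3, h4⟩ := R1.mod2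
  let ⟨k1, k2⟩ := R1.scc T t F E s (by norm_num)
  Tr.trc F Mc s.hyp s.dim s.dimD s.fano.1 s.cU k1 k2 h2 h3 h4
    (M2.mfxz T t (m := 1) F E Mc vr 1 s
      (M2.n62_of cII s.ns (R1.xt T t F E s) (M2.descz T t F E s)) (R1.kob2_of R1.fin2) h1
      (by norm_num))

theorem c63 : CS 6 3 (Gn 6) := by
  intro T _ N r d D k δ V P pt F E s
  obtain rfl : k = 8 := by have := s.dim; omega
  obtain rfl := s.dimD
  exact Cv.end_of Hr.hrr Cv.al Gm.fund (En.dp5 Hr.hrr) T F E s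

theorem c64 : CS 6 4 (Gn 6) := fun T t _ _ _ _ _ _ _ _ _ F E h =>
  have x := R1.xt T t F E h
  En.qe (by norm_num) (by norm_num) h t.hrr (Qs.q6 h.ns x.td x.intX (En.van_xt x (by norm_num)))

variable {n : ℕ} (V : Mf n)

theorem both (hn : n ≤ 6) (hF : Fano n V.X) (h2 : B2 n V.X) (hN : MinFree n V.X) {j : ℤ}
    (hI : Iota n V.X j) : Gp.Gen n V.X ∧
      (j = n + 1 ∨ (j = n ∧ 3 ≤ n) ∨ (n = 5 ∧ j = 3) ∨ (n = 6 ∧ (j = 4 ∨ j = 5))) := by
  rcases r0 Cv.eqs Mp.maps Ma.nsx Ma.rel Br.iot Co.ct Cv.th_ct V hF hN (Cv.b2b n V h2) hI with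
    rfl | ⟨m, rfl, hm, k⟩
  · exact ⟨Br.pn n V hF hI.2, Or.inl rfl⟩
  rcases Nat.eq_zero_or_pos m with rfl | h0
  · exact (k _ (c0 n hm)).elim
  clear hI hF h2 hN
  have : m ≤ 4 := by omega
  interval_cases n <;> interval_cases m <;> first
    | omega
    | exact ⟨k _ c31, by norm_num⟩ | exact (k _ c41).elim | exact ⟨k _ c51, by norm_num⟩
    | exact (k _ c61).elim | exact ⟨k _ c42, by norm_num⟩ | exact (k _ c52).elim
    | exact ⟨k _ c62, by norm_num⟩ | exact ⟨k _ c53, by norm_num⟩ | exact ⟨k _ c63, by norm_num⟩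
    | exact ⟨k _ c64, by norm_num⟩

theorem main (hn : n ≤ 6) (hF : Fano n V.X) (h2 : B2 n V.X) (hN : MinFree n V.X) :
    Gp.RatHom n V.X := by
  have := hF.1
  refine Gp.of_pos V hF.2 ?_
  rcases Nat.eq_zero_or_pos n with rfl | h0
  · exact fun e x _ v => ⟨fun _ _ => 0, ⟨fun _ _ _ => analyticAt_const,
      fun _ _ _ _ _ => Subsingleton.elim _ _⟩, Subsingleton.elim _ _⟩
  obtain ⟨j, hI⟩ := ex_iota Cv.eqs Br.iot V h0 hF
  exact (both V hn hF h2 hN hI).1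

end Vale.Agent.N280
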