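import Vale.Agent.P280Z.Stmt

/-!
# P280: free rational curves of minimal degree (definitions of the statement)
-/

open scoped ContDiff Matrix
open Vale.Agent.P272.K Vale.Agent.P285.H281.FD Vale.Agent.P280Z
open Vale.Agent.P277 (Bd.inv)

namespace Vale.Agent.N280

variable (n : ℕ) (X : Type) [TopologicalSpace X] [ChartedSpace (Cm n) X]

/-- every rational curve `F` of minimal anticanonical degree `i` is free: all quotient line bundles
`𝒪(a)` of `F^* T` have a nonnegative degree -/
def MinFree : Prop :=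
  ∀ (i : ℤ) (F : Cm 2 → X), Iota n X i → RC n F → DegL (Bd.inv (Bd.can n X)) F i →
    ∀ a α, Quo n F a α → 0 ≤ a

variable {n X}

/-- `f` is smooth at `z` -/
def Sm (f : Cm n → ℝ) (z : Cm n) : Prop := ContDiffAt ℝ ∞ f z

/-- the derivative of `f` at `z` in the direction `v` -/
noncomputable def dd (f : Cm n → ℝ) (z v : Cm n) : ℝ := fderiv ℝ f z v

/-- `l` is linear over the reals -/
def Lin (l : Cm n → ℝ) : Prop := IsLinearMap ℝ l

/-- `α` is a smooth real 1-form, given in the charts -/
structure Form1 (α : Chart n X → Cm n → Cm n → ℝ) : Prop where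
  lin : ∀ e x, At e x → Lin (α e (e x))
  sm : ∀ e x, At e x → ∀ v, Sm (fun z => α e z v) (e x)
  chg : ∀ e e' x, At e x → At e' x → ∀ v, α e (e x) v = α e' (e' x) (jacM e e' x *ᵥ v)

/-- `u` is a closed smooth real 2-form, given in the charts -/
structure Closed2 (u : Chart n X → Cm n → Cm n → Cm n → ℝ) : Prop where
  lin : ∀ e x, At e x → ∀ v, Lin (u e (e x) v)
  alt : ∀ e x, At e x → ∀ v w, u e (e x) v w = -u e (e x) w v
  sm : ∀ e x, At e x → ∀ v w, Sm (fun z => u e z v w) (e x)
  chg : ∀ e e' x, At e x → At e' x → ∀ v w,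
    u e (e x) v w = u e' (e' x) (jacM e e' x *ᵥ v) (jacM e e' x *ᵥ w)
  cls : ∀ e x, At e x → ∀ a b c, dd (fun z => u e z b c) (e x) a +
    dd (fun z => u e z c a) (e x) b + dd (fun z => u e z a b) (e x) c = 0

variable (n X)

/-- the second Betti number is at most one: of two closed 2-forms a nontrivial combination is the
differential of a 1-form -/
def BettiTwo : Prop :=
  ∀ u u' : Chart n X → Cm n → Cm n → Cm n → ℝ, Closed2 u → Closed2 u' →
    ∃ c c' : ℝ, (c ≠ 0 ∨ c' ≠ 0) ∧ ∃ α : Chart n X → Cm n → Cm n → ℝ, Form1 α ∧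
      ∀ e x, At e x → ∀ v w, c * u e (e x) v w + c' * u' e (e x) v w =
        dd (fun z => α e z w) (e x) v - dd (fun z => α e z v) (e x) w

end Vale.Agent.N280
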