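import Vale.Agent.N280.Defs
import Vale.Agent.P280Z.Cv.R1

/-!
# P280: from free curves of minimal degree to the situation of an unsplit family
-/

open scoped Manifold ContDiff Topology Matrix
open Set Filter
open Vale.Agent.P272.K Vale.Agent.P285.H281.FD Vale.Agent.P281Z Vale.Agent.P280Z.Mp
open Vale.Agent.P280Z Vale.Agent.P280Z.Cv Vale.Agent.P280Z.Cv.NefA
open Vale.Agent.P277 (Bd.inv)
open Vale.Agent.P277Z (Hol at_chart)

noncomputable section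

namespace Vale.Agent.N280

/-- the frame degrees along one free curve -/
theorem nef_one {n : ℕ} (D : Dat n) (d : ℕ) (φ : BF d D.N)
    (hN : ∀ a α, Quo n (fun p => D.pt (ev φ p)) a α → 0 ≤ a) (hφ : Crv D.P φ)
    (b : Fin (n + 1) → ℕ) (v : ∀ i, BF (b i) D.N) (F : D.Frm φ b v) (j : Fin (n + 1)) :
    b j ≤ d := by
  have P := pt_all n D
  choose a ha using D.lb.cover
  have ok : ∀ {e p}, p ≠ 0 → At e (D.pt (ev φ p)) → Ok D (a (D.pt (ev φ p))) e (ev φ p) :=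
    fun hp he => ⟨hφ _ hp, ha _, he⟩
  by_contra hj
  obtain ⟨c, c1, c2⟩ := coef n D d φ hφ b v F d φ fun p hp => (ok hp (at_chart _)).wk P 0
  have z : ∀ {a e p}, p ≠ 0 → Ok D a e (ev φ p) → Bm a e φ v p j 0 = 0 := fun {a e p} hp h => by
    rw [← Fintype.linearIndependent_iffₛ.1 (F.ind p hp) _ _ ((c2 p).symm.trans (h.bs P hφ F hp 0)) j,
      c1 j (not_le.1 hj), ev_zero]
  have := hN ((d : ℤ) - b j)
    (fun e p k => Bm (a (D.pt (ev φ p))) e φ v p j k.succ) ⟨fun e p hp he => ?_,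
      fun e p hp he k => (ok hp he).det P hφ F hp (Matrix.det_eq_zero_of_row_eq_zero j
        (Fin.cases (z hp (ok hp he)) (congrFun k))), fun e p hp he c hc => funext fun k => ?_,
      fun e e' p hp he he' => (ok hp he).chR P hφ F hp (ok hp he') (z hp (ok hp he'))⟩
  · omega
  · refine (analyticAt_pi_iff.2 fun k : Fin n => (ok hp he).anB P hφ F hp j k.succ).congr ?_
    filter_upwards [((ok hp he).near hφ hp).2] with q k
    rw [k.2.chR P hφ F k.1 (ok k.1 k.2.ch) (z k.1 (ok k.1 k.2.ch)), ← dfM_id k.2.ch k.2.ch,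
      dfM_id_self k.2.ch, Matrix.vecMul_one]
  · simp only [ev_arg, D.cone.smul _ _ (hφ p hp) (pow_ne_zero d hc)]
    exact (ok hp he).homB P hφ F hp hc j _

/-- the curves of minimal degree -/
theorem brg (eqs : EQS) {n : ℕ} (V : Mf n) (i : ℕ) (hF : Fano n V.X) (hN : MinFree n V.X)
    (hI : Iota n V.X i) :
    ∃ (m N r δ : ℕ) (P : Eqs r N) (pt : Cm N → V.X), 0 < m ∧ Hyp V P δ pt (m * i) ∧
      (∀ a : BF (m * i) N, Crv P a → CD P (n + 1 + i) a) ∧ ∃ a : BF (m * i) N, Crv P a := by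
  have := hF.1
  obtain ⟨m, N, r, δ, P, pt, s, hm, hc, h1, h2, h3⟩ := eqs n V _ inferInstance (lb_acan n V) hF.2
  let D : Dat n := ⟨V, N, r, δ, P, pt, (Bd.inv (Bd.can n V.X)).pow m, s, hF.1, hc,
    P281Z.lb_pow (lb_acan n V) m, h1, h2, h3⟩
  have low : ∀ (d : ℕ) (φ : BF d N), Crv P φ → 0 < d → m * i ≤ d := by
    intro d φ hφ hd
    obtain ⟨b, v, hv⟩ := frm n D d φ hφ
    obtain ⟨k1, k2⟩ := rcp_of pt_all n D d φ hφ hd
    have k3 := degk_of pt_all n D d φ hφ b v hv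
    have k4 := hI.2 _ _ k1 k3
    have k5 := degu n V _ _ _ _ D.lb k1 k2 (DegL.pow k3 m)
    have k6 : ((m * i : ℕ) : ℤ) ≤ d := by
      rw [k5]
      push_cast
      exact mul_le_mul_of_nonneg_left k4 (Int.natCast_nonneg m)
    exact_mod_cast k6
  have key : ∀ φ : BF (m * i) N, Crv P φ → 0 < m * i →
      Module.finrank ℂ (Tg P φ) = n + 1 + i ∧ Gen P φ := by
    intro φ hφ hd
    obtain ⟨b, v, hv⟩ := frm n D _ φ hφ
    obtain ⟨k1, k2⟩ := rcp_of pt_all n D _ φ hφ hd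
    have k3 := degk_of pt_all n D _ φ hφ b v hv
    have k5 := degu n V _ _ _ _ D.lb k1 k2 (DegL.pow k3 m)
    have k6 : (∑ j, (((m * i : ℕ) : ℤ) - b j)) = i := by
      push_cast at k5 ⊢
      exact (mul_left_cancel₀ (Int.natCast_pos.2 hm).ne' k5).symm
    rw [k6] at k3
    have hb := nef_one D _ φ (hN i _ hI k1 k3) hφ b v hv
    obtain ⟨k4, k7⟩ := dim_of coef n D _ φ hφ hd b v hv hb
    have e : (∑ j, (((m * i : ℕ) : ℤ) - b j)) = ((∑ j, (m * i - b j) : ℕ) : ℤ) := by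
      rw [Nat.cast_sum]
      exact Finset.sum_congr rfl fun j _ => (Nat.cast_sub (hb j)).symm
    have e2 : (∑ j, (m * i - b j) : ℕ) = i := by exact_mod_cast e.symm.trans k6
    exact ⟨k4.trans (by rw [e2]), k7⟩
  obtain ⟨F, f1, f2⟩ := hI.1
  obtain ⟨d, e, hd, φ, hφ, -⟩ := prc_of pt_all n D F _ f1 (DegL.pow f2 m)
  obtain rfl : m * i = d := by exact_mod_cast e
  exact ⟨m, N, r, δ, P, pt, hm, ⟨hc, hd, fun d' h0 h' a ha => absurd (low d' a ha h0) (not_le.2 h'),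
    fun a ha => (key a ha hd).2⟩, fun a ha => ⟨ha, (key a ha hd).1⟩, φ, hφ⟩

theorem two_le (eqs : EQS) (maps : MAPS) {n i : ℕ} {V : Mf n} (hF : Fano n V.X)
    (hN : MinFree n V.X) (hI : Iota n V.X i) : 2 ≤ i ∧ 4 ≤ n + 1 + i := by
  obtain ⟨c, N, r, δ, P, pt, -, H, h1, a, ha⟩ := brg eqs V i hF hN hI
  have h4 : 4 ≤ n + 1 + i := by
    rw [← (h1 a ha).2]
    have := LinearMap.finrank_le_finrank_of_injective
      (f := (infL a).codRestrict (Tg P a) fun ξ => inf_mem (ha.pv H.cone.hom) ξ)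
      ((injective_iff_map_eq_zero _).2 fun ξ h =>
        (free P a H.pos ha).1 ξ (congrArg Subtype.val h))
    simpa [Module.finrank_matrix] using this
  obtain ⟨k, hk⟩ := Nat.exists_eq_add_of_le' h4
  obtain ⟨F, e⟩ := maps V P δ pt _ _ k (Crv P) H.cone H.pos H.low H.gen hk.symm h1
    (fun b g hb hg => hb.act hg)
    (fun b hb => Eventually.of_forall fun c hc => iff_of_true hc hb) ⟨a, ha⟩
  have := LinearMap.finrank_le_finrank_of_surjective (f := Df (k + 1) n F.e (F.pu a 0))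
    (F.e_sbm _ _ _ (CmpH.at_ch _ _) (CmpH.at_ch _ _))
  simp only [Module.finrank_fin_fun] at this
  omega

theorem sit (eqs : EQS) (maps : MAPS) (nsx : NSX) (rel : REL) (T : CT) (hT : T.OK)
    {n i m D k : ℕ} (V : Mf n) (hn : 0 < n) (hD : D = n + 1 + i) (hk : k + 4 = D)
    (hm : k + 1 = n + m) (hF : Fano n V.X) (hN : MinFree n V.X) (hI : Iota n V.X i)
    (h2 : B2T T V) : ∃ (N r d δ : ℕ) (P : Eqs r N) (pt : Cm N → V.X) (F : Mp.Fam V P pt d D k)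
      (E : VB F.U.X), Sit T δ F m E := by
  obtain ⟨c, N, r, δ, P, pt, -, H, h1, a, ha⟩ := brg eqs V i hF hN hI
  obtain ⟨F₀, e₀⟩ := maps V P δ pt _ D k (Crv P) H.cone H.pos H.low H.gen hk
    (fun b hb => hD ▸ h1 b hb) (fun b g hb hg => hb.act hg)
    (fun b hb => Eventually.of_forall fun c hc => iff_of_true hc hb) ⟨a, ha⟩
  obtain ⟨F, -, -, hU⟩ := cmp_of maps F₀ H hk a (e₀ ▸ ha)
  obtain ⟨E, hE⟩ := rel.ex F.e m ⟨F.e_hol, F.e_sbm⟩ hm
  obtain ⟨k1, k2, k3, k4, k5⟩ := nsx T hT F H hF.1 inferInstance m hm E hE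
  exact ⟨N, r, _, δ, P, pt, F, E, hT, hF, H, hU, hm, hk, hE, ok_of k1 hn h2 k4, k2, k3, k5⟩

/-- in dimension `n` and pseudoindex `m + 2` the situation alone gives `R` -/
def CS (n m : ℕ) (R : Mf n → Prop) : Prop := ∀ T : CT, Rh.Th T → ∀ {N r d D k δ : ℕ} {V : Mf n}
  {P : Eqs r N} {pt : Cm N → V.X} (F : Mp.Fam V P pt d D k) (E : VB F.U.X), Sit T δ F m E → R V

theorem pos_of {n : ℕ} {V : Mf n} (hc : ConnectedSpace V.X) {F : Cm 2 → V.X} (h : RC n F) :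
    0 < n := by
  refine Nat.pos_of_ne_zero ?_
  rintro rfl
  obtain ⟨p, q, -, -, k⟩ := h.ncst
  have : DiscreteTopology V.X := ChartedSpace.discreteTopology (Cm 0) V.X
  exact k (PreconnectedSpace.trivial_of_discrete.elim _ _)

/-- existence of rational curves of small degree -/
def IOT : Prop := ∀ (n : ℕ) (V : Mf n), 0 < n → Fano n V.X → ∃ (F : Cm 2 → V.X) (a : ℤ),
  RC n F ∧ DegL (Bd.inv (Bd.can n V.X)) F a ∧ 0 < a ∧ a ≤ n + 1

theorem ex_iota (eqs : EQS) (iot : IOT) {n : ℕ} (V : Mf n) (hn : 0 < n) (hF : Fano n V.X) :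
    ∃ j, Iota n V.X j := by
  obtain ⟨F₀, a₀, f1, f2, -, -⟩ := iot n V hn hF
  obtain ⟨j, ⟨F, g1, g2⟩, g3⟩ := Int.exists_least_of_bdd
    (P := fun a => ∃ F : Cm 2 → V.X, RC n F ∧ DegL (Bd.inv (Bd.can n V.X)) F a)
    ⟨0, fun a ⟨F, k1, k2⟩ => (deg_pos eqs hF k1 k2).le⟩ ⟨a₀, F₀, f1, f2⟩
  exact ⟨j, ⟨F, g1, g2⟩, fun G a k1 k2 => g3 a ⟨G, k1, k2⟩⟩

theorem r0 (eqs : EQS) (maps : MAPS) (nsx : NSX) (rel : REL) (iot : IOT)
    (T : CT) (hT : Rh.Th T) {n : ℕ} (V : Mf n) (hF : Fano n V.X) (hN : MinFree n V.X)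
    (h2 : B2T T V) {j : ℤ} (hI : Iota n V.X j) : j = n + 1 ∨ ∃ m : ℕ, j = m + 2 ∧ m + 2 ≤ n ∧
      ∀ R, CS n m R → R V := by
  obtain ⟨F, g1, g2⟩ := hI.1
  have hn := pos_of hF.1 g1
  obtain ⟨F₀, a₀, f1, f2, -, f3⟩ := iot n V hn hF
  obtain ⟨i, rfl⟩ := Int.eq_ofNat_of_zero_le (deg_pos eqs hF g1 g2).le
  have hi : i ≤ n + 1 := by exact_mod_cast (hI.2 _ _ f1 f2).trans f3
  rcases hi.eq_or_lt with rfl | hi
  · exact Or.inl (by push_cast; rfl)
  obtain ⟨h3, h4⟩ := two_le eqs maps hF hN hI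
  obtain ⟨m, rfl⟩ := Nat.exists_eq_add_of_le' h3
  obtain ⟨k, hk⟩ := Nat.exists_eq_add_of_le' h4
  obtain ⟨N, r, d, δ, P, pt, G, E, h⟩ := sit eqs maps nsx rel T hT.ok (m := m)
    V hn rfl hk.symm (by omega) hF hN hI h2
  exact Or.inr ⟨m, by push_cast; rfl, by omega, fun R c => c T hT G E h⟩

end Vale.Agent.N280
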